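import Vale.Agent.P283.O647.Final

/-!
# Bounded klt complements for pairs with a correspondence to a pair of arrangement type
-/

namespace Vale.Agent.Results.P283.Correspondences

open Vale.Agent.P283.Q Vale.Agent.P283.H207 Vale.Agent.P283.M647 Vale.Agent.P283.O647

/-- Bounded klt complements for torus actions of any complexity `g` with the quotient `ℙ^g` and with
special fibres over any number of hyperplanes in any position, and for all pairs `(X', B')` which
have a finite cover of bounded degree in common with them: for all `d`, `J`, `q ≥ 1` and `ε > 0`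
there is `c₀ ≥ 1` such that the following holds for all multiples `n ≥ 1` of `c₀` and all `g ≥ 1`
and `k` with `g + k = d`. Let `L` be an extension of degree at most `J` of `K` and of
`ℂ(t_1, …, t_g, z_1, …, z_k)`, on which the torus with the coordinates `z_1, …, z_k` acts, let
`H_1, …, H_R` be distinct hyperplanes in `ℙ^g` with the linear forms `ℓ_i`, and let `Z = Spec A`,
where `A ⊆ K` has the same integral closure in `L` as the ring generated by the monomials in the
`ℓ_i` and `z_l` and their inverses with exponents in the dual of a cone with rays `v j` over the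
hyperplanes, so that `Z` has any dimension (`IsCorr`). Let `X' → Z` be a proper morphism, where `X'`
has the function field `K` of dimension `d`, and let `(X', B')` be an effective `ε`-lc pair such
that the pull-back of `-(K_{X'} + B')` to the normalization of `X'` in `L` is generated by monomials
in the `ℓ_i` and `z_l` over `Z`, with the log discrepancies `1 + ord (dt ∧ dz) - ord / r` along the
rays `v j` in `[0, 1] ∩ (1/q) ℤ`. Then `(X', B')` has a klt `n`-complement over all closed points of
`Z`. -/
theorem result : ∀ d J q : ℕ, 0 < q → ∀ ε : ℝ, 0 < ε →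
    ∃ c₀ : ℕ, 0 < c₀ ∧ ∀ n : ℕ, 0 < n → c₀ ∣ n → ∀ g k : ℕ, 0 < g → g + k = d →
    ∀ (K L : Type) [Field K] [Field L] [Algebra ℂ K] [Algebra ℂ L] [Algebra K L]
      [IsScalarTower ℂ K L] (R M N : ℕ) (t : Fin g → L) (a : Fin R → Fin (g + 1) → ℂ)
      (z : Fin k → L) (v : Fin N → Fin R ⊕ Fin k → ℤ)
      -- the base `Z = Spec A`
      (A : Subalgebra ℂ K), IsCorr J t a z v A →
    -- a rational `d`-form `ω ≠ 0` on `X'`, `d = g + k`
    ∀ D : Fin (g + k) → Derivation ℂ K K, (∃ z, jac D z ≠ 0) →
    -- the effective pair `(X', B')` and the proper morphism `X' → Z`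
    ∀ (𝒞 : Set (Subalgebra ℂ K)) (B : ∀ C : Subalgebra ℂ K, QDivisor C) (r : ℕ)
      (ψ : Subalgebra ℂ K → K), IsPair D A 𝒞 B r ψ →
    -- `-(K_{X'} + B')` is generated over `Z` by monomials
    ∀ (E : Fin (M + 1) → Fin R ⊕ Fin k → ℤ), IsGeneratedA t a z E D 𝒞 r ψ →
      IsSubdivision a v E →
      (∀ j, 0 ≤ toricDisc a r E (v j) ∧ toricDisc a r E (v j) ≤ 1 ∧
        ∃ z : ℤ, (q : ℚ) * toricDisc a r E (v j) = z) →
      -- `(X', B')` is `ε`-lc
      (∀ C ∈ 𝒞, IsEpsLC D (B C) ε) → HasGlobalKltComplement D 𝒞 B n :=
  final

end Vale.Agent.Results.P283.Correspondences
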