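import Vale.Agent.P283.H647.Main

/-!
# Bounded klt complements for quotients of Newton non-degenerate hypersurfaces and their crepant
models
-/

namespace Vale.Agent.Results.P283.NonDegenerate

open MvPolynomial Vale.Agent.P283.Q Vale.Agent.P283.H647

/-- Bounded klt complements: for all `d ≥ 1`, `J`, `q ≥ 1` and `ε > 0` there is `c ≥ 1` such that
the following holds for all multiples `n ≥ 1` of `c`. Let `Y = {f = 0}` be an irreducible Newton
non-degenerate hypersurface of dimension `d` in affine space, let `G` be a finite group acting on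
`Y` by linear substitutions, which has a subgroup of index at most `J` acting diagonally, let
`B_Y = ∑ b_j div(x_j)` be `G`-invariant with `b_j ∈ [0, 1]` and `q b_j ∈ ℤ`, and let `(X, B)` be an
effective `ε`-lc pair with `X = Y / G` and `π^* (K_X + B) = K_Y + B_Y`. Then
(1) `(X, B)` has a klt `n`-complement over every closed point (with `Z = X`);
(2) one rational function `φ` defines a klt `n`-complement of `(X, B)` on all of `X`, and a klt
`n`-complement on all of `X'` of every crepant model `(X', B')` of `(X, B)`, that is, for every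
birational `f : X' → X` and `B' ≥ 0` with `K_{X'} + B' = f^* (K_X + B)`. -/
theorem result :
    ∀ d : ℕ, 0 < d → ∀ J q : ℕ, 0 < q → ∀ ε : ℝ, 0 < ε → ∃ c : ℕ, 0 < c ∧
      ∀ n : ℕ, 0 < n → c ∣ n →
      ∀ (K L : Type) [Field K] [Field L] [Algebra ℂ K] [Algebra ℂ L] [Algebra K L]
        [IsScalarTower ℂ K L] (x : Fin (d + 1) → L) (f : MvPolynomial (Fin (d + 1)) ℂ)
        (b : Fin (d + 1) → ℚ) (G G₀ : Subgroup (L ≃ₐ[ℂ] L)) (A : Subalgebra ℂ K),
        IsNonDegQuotient J x f b G G₀ A →
        (∀ j, 0 ≤ b j ∧ b j ≤ 1 ∧ ∃ z : ℤ, (q : ℚ) * b j = z) →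
      ∀ D : Fin d → Derivation ℂ K K, (∃ g, jac D g ≠ 0) →
      ∀ B : QDivisor A, (∀ p, 0 ≤ B.coeff p) → IsCrepantH x f b A D B → IsEpsLC D B ε →
      (∀ m : Ideal A, m.IsMaximal → HasKltComplement D B n m) ∧
      ∃ φ : K, IsKltComplement D B n φ ∧
        ∀ (𝒞 : Set (Subalgebra ℂ K)) (β : AddValuation K (WithTop ℤ) → ℚ),
          IsCrepantModel D B 𝒞 β → IsKltComplementOn D 𝒞 β n φ :=
  fun d hd J q hq ε hε => Vale.Agent.P283.H647.mainH d hd J q hq ε hε

end Vale.Agent.Results.P283.NonDegenerate
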