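import Vale.Agent.P283.Z647.Main

/-!
# Bounded klt complements for contractions of pairs with a Galois cover by a non-degenerate
hypersurface of a toric variety
-/

namespace Vale.Agent.Results.P283.ToricFibrations

open MvPolynomial Vale.Agent.P283.Q Vale.Agent.P283.H207 Vale.Agent.P283.Z647

/-- Bounded klt complements: for all `d ≥ 1`, `J`, `q ≥ 1` and `ε > 0` there is `c₀ ≥ 1` such that
the following holds for all multiples `n ≥ 1` of `c₀`. Let `{f = 0}` be a `d`-dimensional
irreducible hypersurface in a torus with the coordinates `y_k`, with the function field `L`, let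
`K = L^G` for a group `G` of at most `J` automorphisms of `L`, and let `Z = Spec A`, where `A ⊆ K`
has the same integral closure in `L` as the ring of the affine toric variety of a cone `τ`, which
may contain lines, so that `Z` has any dimension; let `f` be non-degenerate for the weights in `τ`,
jointly with `g_1, …, g_s` (`IsHypCover`). Let `X' → Z` be a proper morphism, where `X'` has the
function field `K`, and let `(X', B')` be an effective `ε`-lc pair such that the pull-back of
`-(K_{X'} + B')` minus `∑ c_i div(g_i)`, `c_i ∈ [0, 1)`, `q c_i ∈ ℤ`, is generated by monomials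
over `Z`, with the toric log discrepancies along the rays `v j` in `[0, 1] ∩ (1/q) ℤ`. Then
`(X', B')` has a klt `n`-complement over all closed points of `Z`. -/
theorem result : ∀ d : ℕ, 0 < d → ∀ J q : ℕ, 0 < q → ∀ ε : ℝ, 0 < ε →
    ∃ c₀ : ℕ, 0 < c₀ ∧ ∀ n : ℕ, 0 < n → c₀ ∣ n →
    ∀ (K L : Type) [Field K] [Field L] [Algebra ℂ K] [Algebra ℂ L] [Algebra K L]
      [IsScalarTower ℂ K L] (s M N : ℕ) (y : Fin (d + 1) → L) (f : MvPolynomial (Fin (d + 1)) ℂ)
      (g : Fin s → MvPolynomial (Fin (d + 1)) ℂ) (v : Fin N → Fin (d + 1) → ℤ)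
      -- the group, and the base `Z = Spec A`
      (G : Subgroup (L ≃ₐ[ℂ] L)) (A : Subalgebra ℂ K), IsHypCover J y f g v G A →
    -- a rational `d`-form `ω ≠ 0` on `X'`
    ∀ D : Fin d → Derivation ℂ K K, (∃ z, jac D z ≠ 0) →
    -- the effective pair `(X', B')` and the proper morphism `X' → Z`
    ∀ (𝒞 : Set (Subalgebra ℂ K)) (B : ∀ C : Subalgebra ℂ K, QDivisor C) (r : ℕ)
      (ψ : Subalgebra ℂ K → K), IsPair D A 𝒞 B r ψ →
    -- `-(K_{X'} + B')` is generated over `Z` by monomials, up to the divisors of the `g_i`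
    ∀ (c : Fin s → ℚ), (∀ i, 0 ≤ c i ∧ c i < 1 ∧ ∃ z : ℤ, (q : ℚ) * c i = z) →
    ∀ (E : Fin (M + 1) → Fin (d + 1) → ℤ), IsGeneratedM y f g c E D 𝒞 r ψ →
      IsSubdivision v E →
      (∀ j, 0 ≤ toricDisc f g c r E (v j) ∧ toricDisc f g c r E (v j) ≤ 1 ∧
        ∃ z : ℤ, (q : ℚ) * toricDisc f g c r E (v j) = z) →
      -- `(X', B')` is `ε`-lc
      (∀ C ∈ 𝒞, IsEpsLC D (B C) ε) → HasGlobalKltComplement D 𝒞 B n :=
  coreZ

end Vale.Agent.Results.P283.ToricFibrations
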